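import Vale.Agent.P237.Petty.Cor.Low20.Chunks
import Vale.Agent.P237.Petty.Cor.Low20.H1b.Data

/-!
# P237: kernel checks of boxes 9 to 11
-/

namespace Vale.Agent.P237.Petty.Cor.Low20.H1b

def check9_0 : cutAll dat.Z1
    ((boxAll dat box9).take 33)
  [.leaf, .leaf, .leaf, .leaf, .leaf, .leaf, .leaf, .leaf, .leaf, .leaf, .leaf, .leaf, .leaf, .leaf,
    .leaf, .leaf, .leaf, (.split 2 .leaf (.split 2 .leaf (.split 0 (.split 2 .leaf .leaf) (.split 2
    .leaf .leaf)))), .leaf, .leaf, .leaf, .leaf, .leaf, .leaf, .leaf, .leaf, (.split 2 .leaf (.split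
    2 .leaf (.split 0 (.split 2 .leaf .leaf) (.split 2 .leaf (.split 2 .leaf .leaf))))), .leaf,
    .leaf, .leaf, .leaf, (.split 0 .leaf .leaf), .leaf] = true := by
  decide +kernel

def check9_1 : cutAll dat.Z1
    ((boxAll dat box9).drop 33)
  [.leaf, .leaf, .leaf, .leaf, .leaf] = true := by
  decide +kernel

theorem sound9 : BoxSound dat box9 ∧ TopSound dat box9 :=
  bound_of_boxAll
    (cutAll_of_take 33 check9_0
      check9_1)

def check10_0 : cutAll dat.Z1
    ((boxAll dat box10).take 32)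
  [.leaf, .leaf, .leaf, .leaf, .leaf, .leaf, .leaf, .leaf, .leaf, .leaf, .leaf, .leaf, .leaf, .leaf,
    .leaf, .leaf, .leaf, (.split 2 .leaf (.split 2 .leaf (.split 0 (.split 2 .leaf .leaf) (.split 2
    .leaf .leaf)))), .leaf, .leaf, .leaf, .leaf, .leaf, .leaf, .leaf, .leaf, (.split 2 .leaf (.split
    2 .leaf (.split 0 (.split 2 .leaf (.split 2 .leaf .leaf)) (.split 2 .leaf (.split 2 .leaf
    .leaf))))), .leaf, .leaf, .leaf, .leaf, (.split 0 .leaf .leaf)] = true := by
  decide +kernel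

def check10_1 : cutAll dat.Z1
    ((boxAll dat box10).drop 32)
  [.leaf, .leaf, .leaf, .leaf, .leaf, .leaf] = true := by
  decide +kernel

theorem sound10 : BoxSound dat box10 ∧ TopSound dat box10 :=
  bound_of_boxAll
    (cutAll_of_take 32 check10_0
      check10_1)

def check11_0 : cutAll dat.Z1
    ((boxAll dat box11).take 28)
  [.leaf, .leaf, .leaf, .leaf, .leaf, .leaf, .leaf, .leaf, .leaf, .leaf, .leaf, .leaf, .leaf, .leaf,
    .leaf, .leaf, .leaf, (.split 2 .leaf (.split 2 .leaf (.split 0 (.split 2 .leaf .leaf) (.split 2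
    .leaf .leaf)))), .leaf, (.split 2 (.split 2 (.split 0 .leaf .leaf) .leaf) .leaf), .leaf, .leaf,
    .leaf, .leaf, .leaf, .leaf, (.split 2 .leaf (.split 2 .leaf (.split 0 (.split 2 .leaf (.split 2
    .leaf .leaf)) (.split 2 .leaf .leaf)))), .leaf] = true := by
  decide +kernel

def check11_1 : cutAll dat.Z1
    ((boxAll dat box11).drop 28)
  [(.split 2 (.split 2 (.split 0 .leaf .leaf) .leaf) .leaf), .leaf, .leaf, (.split 0 .leaf .leaf),
    .leaf, .leaf, .leaf, .leaf, .leaf, .leaf] = true := by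
  decide +kernel

theorem sound11 : BoxSound dat box11 ∧ TopSound dat box11 :=
  bound_of_boxAll
    (cutAll_of_take 28 check11_0
      check11_1)

end Vale.Agent.P237.Petty.Cor.Low20.H1b
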