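import Vale.Agent.P237.Petty.Cor.Low20.Chunks
import Vale.Agent.P237.Petty.Cor.Low20.H1b.Data

/-!
# P237: kernel checks of boxes 12 to 14
-/

namespace Vale.Agent.P237.Petty.Cor.Low20.H1b

def check12_0 : cutAll dat.Z1
    ((boxAll dat box12).take 31)
  [.leaf, .leaf, .leaf, .leaf, .leaf, .leaf, .leaf, .leaf, .leaf, .leaf, .leaf, .leaf, .leaf, .leaf,
    .leaf, .leaf, .leaf, (.split 2 .leaf (.split 2 .leaf .leaf)), (.split 2 .leaf (.split 2 .leaf
    (.split 0 .leaf .leaf))), .leaf, .leaf, .leaf, .leaf, .leaf, .leaf, .leaf, (.split 2 .leaf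
    (.split 2 .leaf .leaf)), (.split 2 .leaf (.split 2 .leaf (.split 0 .leaf .leaf))), (.split 2
    (.split 2 (.split 0 .leaf .leaf) .leaf) .leaf), .leaf, .leaf] = true := by
  decide +kernel

def check12_1 : cutAll dat.Z1
    ((boxAll dat box12).drop 31)
  [(.split 0 .leaf .leaf), .leaf, .leaf, .leaf, .leaf, .leaf, .leaf] = true := by
  decide +kernel

theorem sound12 : BoxSound dat box12 ∧ TopSound dat box12 :=
  bound_of_boxAll
    (cutAll_of_take 31 check12_0
      check12_1)

def check13_0 : cutAll dat.Z1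
    ((boxAll dat box13).take 27)
  [.leaf, .leaf, .leaf, .leaf, .leaf, .leaf, .leaf, .leaf, .leaf, .leaf, .leaf, .leaf, .leaf, .leaf,
    .leaf, .leaf, (.split 2 .leaf (.split 2 (.split 0 .leaf .leaf) .leaf)), (.split 2 .leaf .leaf),
    (.split 2 .leaf (.split 2 .leaf (.split 0 .leaf .leaf))), (.split 2 (.split 2 (.split 0 (.split
    2 (.split 2 (.split 0 .leaf .leaf) .leaf) .leaf) .leaf) .leaf) .leaf), .leaf, .leaf, .leaf,
    .leaf, .leaf, (.split 2 .leaf (.split 2 (.split 0 .leaf (.split 2 .leaf .leaf)) .leaf)), (.split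
    2 .leaf .leaf)] = true := by
  decide +kernel

def check13_1 : cutAll dat.Z1
    ((boxAll dat box13).drop 27)
  [(.split 2 .leaf (.split 2 .leaf (.split 0 .leaf .leaf))), (.split 2 (.split 2 (.split 0 (.split 2
    (.split 2 (.split 0 .leaf .leaf) .leaf) .leaf) .leaf) .leaf) .leaf), .leaf, .leaf, (.split 0
    .leaf .leaf), .leaf, .leaf, .leaf, .leaf, .leaf, .leaf] = true := by
  decide +kernel

theorem sound13 : BoxSound dat box13 ∧ TopSound dat box13 :=
  bound_of_boxAll
    (cutAll_of_take 27 check13_0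
      check13_1)

def check14_0 : cutAll dat.Z1
    ((boxAll dat box14).take 34)
  [.leaf, .leaf, .leaf, .leaf, .leaf, .leaf, .leaf, .leaf, .leaf, .leaf, .leaf, .leaf, .leaf, .leaf,
    .leaf, .leaf, (.split 2 .leaf (.split 2 .leaf .leaf)), .leaf, (.split 2 .leaf (.split 2 .leaf
    (.split 0 .leaf .leaf))), .leaf, .leaf, .leaf, .leaf, .leaf, .leaf, (.split 2 .leaf (.split 2
    .leaf .leaf)), .leaf, (.split 2 .leaf (.split 2 .leaf (.split 0 .leaf .leaf))), .leaf, .leaf,
    .leaf, (.split 0 .leaf .leaf), .leaf, .leaf] = true := by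
  decide +kernel

def check14_1 : cutAll dat.Z1
    ((boxAll dat box14).drop 34)
  [.leaf, .leaf, .leaf, .leaf] = true := by
  decide +kernel

theorem sound14 : BoxSound dat box14 ∧ TopSound dat box14 :=
  bound_of_boxAll
    (cutAll_of_take 34 check14_0
      check14_1)

end Vale.Agent.P237.Petty.Cor.Low20.H1b
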