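import Vale.Agent.P237.Petty.Cor.Low20.Chunks
import Vale.Agent.P237.Petty.Cor.Low20.H1b.Data

/-!
# P237: kernel checks of boxes 15 to 17
-/

namespace Vale.Agent.P237.Petty.Cor.Low20.H1b

def check15_0 : cutAll dat.Z1
    ((boxAll dat box15).take 25)
  [.leaf, .leaf, .leaf, .leaf, .leaf, .leaf, .leaf, .leaf, .leaf, .leaf, (.split 0 .leaf .leaf),
    .leaf, .leaf, .leaf, (.split 2 .leaf .leaf), (.split 2 .leaf .leaf), (.split 2 (.split 2 .leaf
    .leaf) .leaf), .leaf, (.split 2 .leaf (.split 2 (.split 0 .leaf .leaf) (.split 0 .leaf .leaf))),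
    (.split 2 .leaf (.split 2 .leaf (.split 0 (.split 2 .leaf (.split 2 .leaf (.split 0 .leaf
    .leaf))) .leaf))), .leaf, .leaf, .leaf, (.split 2 .leaf .leaf), (.split 2 .leaf (.split 2
    (.split 0 .leaf .leaf) .leaf))] = true := by
  decide +kernel

def check15_1 : cutAll dat.Z1
    ((boxAll dat box15).drop 25)
  [(.split 2 (.split 2 .leaf .leaf) .leaf), .leaf, (.split 2 .leaf (.split 2 (.split 0 .leaf .leaf)
    (.split 0 (.split 2 .leaf (.split 2 .leaf (.split 0 .leaf .leaf))) .leaf))), .leaf, .leaf,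
    .leaf, (.split 0 .leaf .leaf), .leaf, .leaf, .leaf, .leaf, .leaf, .leaf] = true := by
  decide +kernel

theorem sound15 : BoxSound dat box15 ∧ TopSound dat box15 :=
  bound_of_boxAll
    (cutAll_of_take 25 check15_0
      check15_1)

def check16_0 : cutAll dat.Z1
    (boxAll dat box16)
  [.leaf, .leaf, .leaf, .leaf, .leaf, .leaf, .leaf, .leaf, .leaf, .leaf, .leaf, .leaf, .leaf, .leaf,
    .leaf, .leaf, .leaf, .leaf, .leaf, (.split 2 .leaf (.split 2 .leaf (.split 0 .leaf .leaf))),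
    .leaf, .leaf, .leaf, (.split 2 .leaf .leaf), .leaf, .leaf, .leaf, .leaf, .leaf, .leaf, .leaf,
    .leaf, .leaf, .leaf, .leaf, .leaf, .leaf, .leaf] = true := by
  decide +kernel

theorem sound16 : BoxSound dat box16 ∧ TopSound dat box16 :=
  bound_of_boxAll
    check16_0

def check17_0 : cutAll dat.Z1
    ((boxAll dat box17).take 31)
  [.leaf, .leaf, .leaf, .leaf, .leaf, .leaf, .leaf, .leaf, .leaf, .leaf, .leaf, (.split 2 .leaf
    (.split 2 .leaf .leaf)), .leaf, .leaf, .leaf, .leaf, .leaf, .leaf, .leaf, (.split 2 .leaf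
    (.split 2 .leaf (.split 0 .leaf .leaf))), (.split 2 .leaf (.split 2 .leaf .leaf)), .leaf,
    (.split 2 .leaf .leaf), (.split 2 (.split 2 .leaf .leaf) .leaf), .leaf, .leaf, .leaf, .leaf,
    .leaf, .leaf, .leaf] = true := by
  decide +kernel

def check17_1 : cutAll dat.Z1
    ((boxAll dat box17).drop 31)
  [(.split 0 .leaf (.split 1 (.split 0 .leaf .leaf) (.split 0 .leaf .leaf))), .leaf, .leaf, .leaf,
    .leaf, .leaf, .leaf] = true := by
  decide +kernel

theorem sound17 : BoxSound dat box17 ∧ TopSound dat box17 :=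
  bound_of_boxAll
    (cutAll_of_take 31 check17_0
      check17_1)

end Vale.Agent.P237.Petty.Cor.Low20.H1b
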