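import Vale.Agent.P237.Petty.Cor.Low20.Chunks
import Vale.Agent.P237.Petty.Cor.Low20.H1b.Data

/-!
# P237: kernel checks of boxes 21 to 22
-/

namespace Vale.Agent.P237.Petty.Cor.Low20.H1b

def check21_0 : cutAll dat.Z1
    ((boxAll dat box21).take 16)
  [.leaf, .leaf, .leaf, .leaf, .leaf, (.split 0 .leaf (.split 1 .leaf .leaf)), .leaf, .leaf, .leaf,
    .leaf, .leaf, (.split 0 (.split 0 (.split 0 .leaf .leaf) .leaf) .leaf), (.split 0 (.split 2
    (.split 1 .leaf (.split 0 .leaf .leaf)) (.split 1 .leaf (.split 0 .leaf .leaf))) .leaf), (.split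
    0 (.split 2 (.split 1 .leaf (.split 0 .leaf .leaf)) (.split 1 .leaf (.split 0 .leaf .leaf)))
    .leaf), (.split 0 (.split 2 (.split 1 .leaf (.split 0 .leaf .leaf)) (.split 1 .leaf (.split 0
    .leaf .leaf))) .leaf), (.split 0 (.split 2 (.split 1 .leaf (.split 0 .leaf .leaf)) (.split 1
    .leaf (.split 0 .leaf .leaf))) .leaf)] = true := by
  decide +kernel

def check21_1 : cutAll dat.Z1
    (((boxAll dat box21).drop 16).take 7)
  [(.split 0 (.split 2 (.split 1 .leaf (.split 0 .leaf .leaf)) (.split 1 .leaf (.split 0 .leaf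
    .leaf))) .leaf), (.split 0 (.split 2 (.split 1 .leaf (.split 0 .leaf .leaf)) (.split 1 .leaf
    (.split 0 .leaf .leaf))) .leaf), (.split 0 (.split 2 (.split 1 .leaf (.split 0 .leaf .leaf))
    (.split 1 .leaf (.split 0 .leaf .leaf))) .leaf), (.split 0 (.split 2 (.split 1 .leaf .leaf)
    (.split 1 .leaf .leaf)) .leaf), (.split 0 (.split 0 (.split 0 .leaf .leaf) .leaf) .leaf),
    (.split 0 (.split 2 (.split 1 .leaf (.split 0 .leaf .leaf)) (.split 1 .leaf (.split 0 .leaf
    .leaf))) .leaf), (.split 0 (.split 2 (.split 1 .leaf (.split 0 .leaf .leaf)) (.split 1 .leaf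
    (.split 0 .leaf .leaf))) .leaf)] = true := by
  decide +kernel

def check21_2 : cutAll dat.Z1
    ((((boxAll dat box21).drop 16).drop 7).take 13)
  [(.split 0 (.split 2 (.split 1 .leaf (.split 0 .leaf .leaf)) (.split 1 .leaf (.split 0 .leaf
    .leaf))) .leaf), (.split 0 (.split 2 (.split 1 .leaf (.split 0 .leaf .leaf)) (.split 1 .leaf
    (.split 0 .leaf .leaf))) .leaf), (.split 0 (.split 2 (.split 1 .leaf (.split 0 .leaf .leaf))
    (.split 1 .leaf (.split 0 .leaf .leaf))) .leaf), (.split 0 (.split 2 (.split 1 .leaf (.split 0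
    .leaf .leaf)) (.split 1 (.split 0 .leaf .leaf) (.split 0 .leaf .leaf))) .leaf), (.split 0
    (.split 0 .leaf .leaf) .leaf), (.split 0 (.split 2 (.split 1 .leaf .leaf) (.split 1 .leaf
    .leaf)) .leaf), .leaf, .leaf, (.split 0 .leaf .leaf), .leaf, .leaf, .leaf, .leaf] = true := by
  decide +kernel

def check21_3 : cutAll dat.Z1
    ((((boxAll dat box21).drop 16).drop 7).drop 13)
  [.leaf, .leaf] = true := by
  decide +kernel

theorem sound21 : BoxSound dat box21 ∧ TopSound dat box21 :=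
  bound_of_boxAll
    (cutAll_of_take 16 check21_0
      (cutAll_of_take 7 check21_1
      (cutAll_of_take 13 check21_2
      check21_3)))

def check22_0 : cutAll dat.Z1
    (boxAll dat box22)
  [.leaf, .leaf, .leaf, .leaf, .leaf, .leaf, .leaf, .leaf, .leaf, .leaf, .leaf, .leaf, .leaf, .leaf,
    .leaf, .leaf, .leaf, .leaf, .leaf, .leaf, .leaf, .leaf, .leaf, .leaf, .leaf, .leaf, .leaf,
    .leaf, .leaf, .leaf, .leaf, (.split 0 .leaf .leaf), .leaf, .leaf, .leaf, .leaf, .leaf, .leaf] = true := by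
  decide +kernel

theorem sound22 : BoxSound dat box22 ∧ TopSound dat box22 :=
  bound_of_boxAll
    check22_0

end Vale.Agent.P237.Petty.Cor.Low20.H1b
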