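import Vale.Agent.P237.Petty.Cor.Low20.Chunks
import Vale.Agent.P237.Petty.Cor.Low20.H1b.Data

/-!
# P237: kernel checks of boxes 23 to 24
-/

namespace Vale.Agent.P237.Petty.Cor.Low20.H1b

def check23_0 : cutAll dat.Z1
    (boxAll dat box23)
  [.leaf, .leaf, .leaf, .leaf, .leaf, .leaf, .leaf, .leaf, .leaf, .leaf, .leaf, .leaf, .leaf, .leaf,
    .leaf, .leaf, .leaf, .leaf, .leaf, .leaf, .leaf, .leaf, .leaf, .leaf, .leaf, .leaf, .leaf,
    .leaf, .leaf, .leaf, .leaf, (.split 0 .leaf .leaf), .leaf, .leaf, .leaf, .leaf, .leaf, .leaf] = true := by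
  decide +kernel

theorem sound23 : BoxSound dat box23 ∧ TopSound dat box23 :=
  bound_of_boxAll
    check23_0

def check24_0 : cutAll dat.Z1
    (boxAll dat box24)
  [.leaf, .leaf, .leaf, .leaf, .leaf, .leaf, .leaf, .leaf, .leaf, .leaf, .leaf, .leaf, .leaf, .leaf,
    .leaf, .leaf, .leaf, .leaf, .leaf, .leaf, .leaf, .leaf, .leaf, .leaf, .leaf, .leaf, .leaf,
    .leaf, .leaf, .leaf, .leaf, (.split 0 .leaf .out), .leaf, .leaf, .leaf, .leaf, .leaf, .leaf] = true := by
  decide +kernel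

theorem sound24 : BoxSound dat box24 ∧ TopSound dat box24 :=
  bound_of_boxAll
    check24_0

end Vale.Agent.P237.Petty.Cor.Low20.H1b
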